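import Vale.Agent.P154.SN.Charts

set_option maxRecDepth 100000

namespace Vale.Agent.P154.SN

open Cert InT OutT

/-- Certificate tree. -/
def tr00_r100001 : OutT :=
(B (A (B (A (B (O (c (c l (d l (c l (d l (c l l))))) (c (d (d l (c l l)) (c (d (c l l) (c (d l (c l (d l (c l l)))) (d (c l l) (c (d l (c l l)) (c l l))))) (d (d (c l l) (c l l)) (c (d (c l l) (c (c l l) (c l l))) (d (c l l) (c l l)))))) (d (d k (d (d k (c k k)) (c k k))) (d (c (d (c k k) (c (c l k) (d k l))) (d k (c k k))) (c (d (c (c l l) l) (c l l)) (d (c l l) l))))))) (O (c (c l (d l (c l l))) (c (d (d l l) (c (d l (c l l)) (d (c l l) (c l (c l l))))) (d (d k (d l (c k k))) (d (c (d l (c l l)) (d k (c k k))) (c (d (c l l) (c l l)) (d l l)))))))) (B (A (B (A (B (A (B s (A (B s (O (c (c l (d l (c l (d l (c l (c l l)))))) (c (d (d l (c l l)) (c (d (c l l) (c (d l (c (c l l) (d l (c (c l l) (d l (c l (c l l))))))) (d (c l l) (c (d l (d l (c (d l (c l l)) (c l l)))) (d l (c l l))))))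 (d (d (c l l) (c l l)) (c (d (c l l) (c (c l l) (c l l))) (d (c l l) (c l l)))))) (d (d k (d (d k (c k k)) (c k k))) (d (c (d (c k k) (c (c l k) (d k l))) (d k (c k k))) (c (d (c (c l l) l) (c l l)) (d (c l l) l)))))))) s)) s) (A (B (A (O (c (c l (d l (c l (d l (c l l))))) (c (d (d l (c l l)) (c (d (c l l) (c (d l (c l (d l (c l l)))) (d (c l l) (c (d l l) (c l l))))) (d (d (c l l) (c l l)) (c (d l (c (c l l) l)) (d (c l l) (c l l)))))) (d (d k (d (d k l) (c k k))) (d (c (d (c k k) (c (c l k) (c k k))) (d k (c k k))) (c (d (c (c l l) l) (c l l)) (d (c l l) l))))))) s) (A (O (c (c l (d l (c l (d l (c l l))))) (c (d (d l (c l l)) (c (d l (c (d l (c l l)) (d l (c l l)))) (d (d l (c l l)) (c (d l (c l l)) (d (c l l) (c l l)))))) (d (d k (d (d k l) (c k k))) (d (c (d (c k k) (c l (c k k))) (d k (c k k))) (c (d (c (c l l) l) (c l l)) (d (c l l) l))))))) (B s (A (O (c (c l (d l (c l (d l (c l l))))) (c (d (d l (c l l)) (c (d (c l l) (c (d l (c l (c l l)))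 (d l (c (c l l) l)))) (d (d l (c l l)) (c (d l (c l l)) (d (c l l) (c l l)))))) (d (d k (d (d k l) (c k k))) (d (c (d (c k k) (c (c l k) (c k k))) (d k (c k k))) (c (d (c (c l l) l) (c l l)) (d (c l l) l))))))) s)))) s)) s) (A (B (A (O (c (c l (d l (c l (d l (c l l))))) (c (d (d l (c l l)) (c (d (c l l) (c (d l (c l (d l (c l l)))) (d (c l l) (c (d l l) (c l l))))) (d (d (c l l) (c l l)) (c (d l (c (c l l) l)) (d (c l l) (c l l)))))) (d (d k (d (d k l) (c k k))) (d (c (d (c k k) (c (c l k) (c k k))) (d k (c k k))) (c (d (c (c l l) l) (c l l)) (d (c l l) l))))))) s) (A (O (c (c l (d l (c l (d l l)))) (c (d (d l l) (c (d l (c (d l l) (d l l))) (d (d l (c l l)) (c (d l (c l l)) (d l l))))) (d (d k (d (c k k) (c k k))) (d (c (d (c k k) (c l (c k k))) (d k (c k k))) (c (d (c l l) (c l l)) (d (c l l) l))))))) (B (A (O (c (c l (d l (c l (d l (c l l))))) (c (d (d l (c l l)) (c (d (c l l) (c (d l (c l (d l (c l l)))) (d (c l l) (c (d l (c l l)) (c l l)))))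 (d (d (c l l) (c l l)) (c (d l (c (c l l) l)) (d (c l l) (c l l)))))) (d (d k (d (d k l) (c k k))) (d (c (d (c k k) (c (c l k) (c k k))) (d k (c k k))) (c (d (c (c l l) l) (c l l)) (d (c l l) l))))))) s) (A (O (c (c l (d l (c l (d l (c l l))))) (c (d (d l (c l l)) (c (d l (c (d l (c l l)) (d l (c l l)))) (d (d l (c l l)) (c (d l (c l l)) (d (c l l) (c l l)))))) (d (d k (d (c k k) (c k k))) (d (c (d (c k k) (c l (c k k))) (d k (c k k))) (c (d (c (c l l) l) (c l l)) (d (c l l) l))))))) s)))) s)) s) (A (B (A (O (c (c l (d l (c l (d l (c l l))))) (c (d (d l (c l l)) (c (d (c l l) (c (d l (c l (d l (c l (c l l))))) (d (c l l) (c (d l (c (c l l) l)) (d l l))))) (d (d (c l l) (c l l)) (c (d (c l l) (c (c l l) (c l l))) (d (c l l) (c l l)))))) (d (d k (d (d k l) (c k k))) (d (c (d (c k k) (c (c l k) (c k k))) (d k (c k k))) (c (d (c (c l l) l) (c l l)) (d (c l l) l))))))) (B s (A (B (A (O (c (c l (d l (c l (d l (c l l))))) (c (d (d l (c l l)) (c (d (c l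 l) (c (d l (c l (d l (c l l)))) (d (c l l) (c (d l (c l l)) (c l l))))) (d (d (c l l) (c l l)) (c (d l (c (c l l) l)) (d (c l l) (c l l)))))) (d (d k (d (d k l) (c k k))) (d (c (d (c k k) (c (c l k) (c k k))) (d k (c k k))) (c (d (c (c l l) l) (c l l)) (d (c l l) l))))))) s) (A (O (c (c l (d l (c l (d l (c l l))))) (c (d (d l (c l l)) (c (d l (c (d l (c l l)) (d l (c l l)))) (d (d l (c l l)) (c (d l (c l l)) (d (c l l) (c l l)))))) (d (d k (d (c k k) (c k k))) (d (c (d (c k k) (c l (c k k))) (d k (c k k))) (c (d (c (c l l) l) (c l l)) (d (c l l) l))))))) s)) s))) (A (O (c (c l (d l (c l (c l l)))) (c (d (d l l) (c (d l (c l l)) (d (c l l) (c (c l l) (d l l))))) (d (d k (d l (c k k))) (d (c (d l (c l l)) (d k (c k k))) (c (d (c l l) (c l l)) (d (c l l) l))))))) (B (A (O (c (c l (d l (c l (d l (c l l))))) (c (d (d l (c l l)) (c (d (c l l) (c (d l (c l (d l (c l l)))) (d (c l l) (c (d l (c l l)) (c l l))))) (d (d (c l l) (c l l)) (c (d l (c (c l l)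 l)) (d (c l l) (c l l)))))) (d (d k (d (d k l) (c k k))) (d (c (d (c k k) (c (c l k) (c k k))) (d k (c k k))) (c (d (c (c l l) l) (c l l)) (d (c l l) l))))))) s) (A (O (c (c l (d l (c l (d l l)))) (c (d (d l l) (c (d l (c (d l l) (d l l))) (d (d l (c l l)) (c (d l (c l l)) (d l l))))) (d (d k (d (c k k) (c k k))) (d (c (d l (c l (c k k))) (d k (c k k))) (c (d (c l l) (c l l)) (d (c l l) l))))))) (B (A (O (c (c l (d l (c l (d l (c l l))))) (c (d (d l (c l l)) (c (d (c l l) (c (d l (c l (d l (c l l)))) (d (c l l) (c (d l l) (c l l))))) (d (d (c l l) (c l l)) (c (d l (c (c l l) l)) (d (c l l) (c l l)))))) (d (d k (d (d k l) (c k k))) (d (c (d (c k k) (c (c l k) (c k k))) (d k (c k k))) (c (d (c (c l l) l) (c l l)) (d (c l l) l))))))) s) (A (O (c (c l (d l (c l (d l (c l l))))) (c (d (d l l) (c (d l (c (d l (c l l)) (d l (c l l)))) (d (d l (c l l)) (c (d l (c l l)) (d (c l l) (c l l)))))) (d (d k (d (c k k) (c k k))) (d (c (d (c k k) (c l (c k k)))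 (d k (c k k))) (c (d (c (c l l) l) (c l l)) (d (c l l) l))))))) s)))))) s))) (A (O (c (c l (d l l)) (c (d (c l l) (c (c l l) (d l (c l l)))) (d (d k (d l l)) (d (c l (d k l)) (c (c l l) (c l l))))))) (B (A (O (c (c l (d l (c l (d l (c l l))))) (c (d (d l (c l l)) (c (d (c l l) (c (d l (c l (d l (c l l)))) (d (c l l) (c (d l (c l l)) (c l l))))) (d (d (c l l) (c l l)) (c (d (c l l) (c (c l l) (c l l))) (d (c l l) (c l l)))))) (d (d k (d (d k l) (c k k))) (d (c (d (c k k) (c (c l k) (c k k))) (d k (c k k))) (c (d (c (c l l) l) (c l l)) (d (c l l) l))))))) (B (A (B s (A (B (A (O (c (c l (d l (c l (d l (c l l))))) (c (d (d l (c l l)) (c (d (c l l) (c (d l (c l (d l l))) (d (c l l) (c (d l l) l)))) (d (d l (c l l)) (c (d l (c l l)) (d (c l l) (c l l)))))) (d (d k (d (c k k) (c k k))) (d (c (d (c k k) (c (c l k) (c k k))) (d k (c k k))) (c (d (c (c l l) l) (c l l)) (d (c l l) l))))))) s) (A (O (c (c l (d l (c l (d l l)))) (c (d (d l l) (c (d l (c (d l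 (c l l)) (d l l))) (d (d l (c l l)) (c (d l (c l l)) (d l (c l l)))))) (d (d k (d (c k k) (c k k))) (d (c (d (c k k) (c l (c k k))) (d k (c k k))) (c (d (c (c l l) l) (c l l)) (d (c l l) l))))))) s)) s)) s) (A (B (A (O (c (c l (d l (c l (d l (c l l))))) (c (d (d l (c l l)) (c (d (c l l) (c (d l (c l (c l l))) (d l (c (c l l) l)))) (d (d l (c l l)) (c (d l (c l l)) (d (c l l) (c l l)))))) (d (d k (d (c k k) (c k k))) (d (c (d (c k k) (c (c l k) (c k k))) (d k (c k k))) (c (d (c (c l l) l) (c l l)) (d (c l l) l))))))) s) (A (O (c (c l (d l (c l (c l l)))) (c (d (d l l) (c (d l (c (c l l) (c l l))) (d (d l l) (c (c l l) (d l l))))) (d (d k (d l (c k k))) (d (c (d l (c l l)) (d k (c k k))) (c (d (c l l) (c l l)) (d (c l l) l))))))) (B (A s s) (O (c (c l (d l (c l (d l (c l (c l l)))))) (c (d (d l (c l l)) (c (d (c l l) (c (d l (c (c l l) (d l (c (c l l) (d l (c l (c l l))))))) (d (c l l) (c (d l (d l (c (d l (c l l)) l))) (d l (c l l)))))) (d (d (c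 l l) (c l l)) (c (d (c l l) (c (c l l) (c l l))) (d (c l l) (c l l)))))) (d (d k (d (d k l) (c k k))) (d (c (d (c k k) (c (c l k) (c k k))) (d k (c k k))) (c (d (c (c l l) l) (c l l)) (d (c l l) l)))))))))) s))) (A (O (c (c l (d l (c l l))) (c (d (d l l) (c (d l l) (d l (c l l)))) (d (d k (d l (c k k))) (d (c (d l l) (d k (c k k))) (c (d (c l l) (c l l)) (c l l))))))) (B (A (O (c (c l (d l (c l (d l (c l l))))) (c (d (d l l) (c (d l (c (d l (c l l)) (d l (c l l)))) (d (d l (c l l)) (c (d l (c l l)) (d (c l l) (c l l)))))) (d (d k (d (c k k) (c k k))) (d (c (d (c k k) (c l (c k k))) (d k (c k k))) (c (d (c (c l l) l) (c l l)) (d (c l l) l))))))) (B s (A (B s (O (c (c l (d l (c l (d l (c l l))))) (c (d (d l (c l l)) (c (d (c l l) (c (d l (c l (d l l))) (d (c l l) (c (d l l) l)))) (d (d l (c l l)) (c (d l (c l l)) (d (c l l) (c l l)))))) (d (d k (d (c k k) (c k k))) (d (c (d (c k k) (c (c l k) (c k k))) (d k (c k k))) (c (d (c (c l l) l) (c l l)) (d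 (c l l) l)))))))) s))) (A (O (c (c l (d l (c l l))) (c (d (d l l) (c (d l (c l l)) (d (c l l) (c l (c l l))))) (d (d k (d l (c k k))) (d (c (d l (c l l)) (d k (c k k))) (c (d (c l l) (c l l)) (d (c l l) l))))))) (B (A (O (c (c l (d l (c l (d l l)))) (c (d (d l l) (c (d l (c (d l (c l l)) (d l l))) (d (d l (c l l)) (c (c l (c l l)) (d l (c l l)))))) (d (d k (d (c k k) (c k k))) (d (c (d l (c l (c k k))) (d k (c k k))) (c (d (c l l) (c l l)) (d (c l l) l))))))) s) (O (c (c l (d l (c l (d l (c l (c l l)))))) (c (d (d l (c l l)) (c (d (c l l) (c (d l (d l (c l (c (c l l) (d l (c l (d l (c l l)))))))) (d (c l l) (c (d l (d l (c (c (d l l) (c l l)) (c l l)))) (d l (c l l)))))) (d (d (c l l) (c l l)) (c (d (c l l) (c (c l l) (c l l))) (d (c l l) (c l l)))))) (d (d k (d (c k k) (c k k))) (d (c (d (c k k) (c (c l k) (c k k))) (d k (c k k))) (c (d (c (c l l) l) (c l l)) (d (c l l) l)))))))))))))) (B s (A s s))) (A (B (O (c (c l (d l (c l (d l (c l l)))))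 (c (d (d l (c l l)) (c (d (c l l) (c (d l (c l (c l l))) (d l (c (c l l) l)))) (d (d l (c l l)) (c (d l (c (c l l) (c l l))) (d (c l l) (c l l)))))) (d (d k (d (c k k) (c k k))) (d (c (d (c k k) (c (c l k) (c k k))) (d k (c k k))) (c (d (c (c l l) l) (c l l)) (d (c l l) l))))))) (O (c (c l (c l l)) (c (d l (c l l)) (d (d k (c k k)) (d (c l (d k l)) (c (c l l) (c l l)))))))) (B (A (B (A (B (A (B s (A (O (c (c l (d l (c l (d l (c l l))))) (c (d (d l l) (c (d (c l l) (c (d l (c l (c l l))) (d l (c (c l l) l)))) (d (d l (c l l)) (c (d l (c l l)) (d (c l l) (c l l)))))) (d (d k (d (c k k) (c k k))) (d (c (d (c k k) (c l (c k k))) (d k (c k k))) (c (d (c (c l l) l) (c l l)) (d (c l l) l))))))) s)) s) (A (B (A (O (c (c l (d l (c l (c l l)))) (c (d (d l l) (c (d l (c (c l l) (c l l))) (d (c l l) (c (c l l) (d l l))))) (d (d k (d l (c k k))) (d (c (d l (c l l)) (d k (c k k))) (c (d (c l l) (c l l)) (d (c l l) l))))))) s) (O (c (c l (d l (c l (d l l)))) (c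 (d (d l l) (c (d l (c (d l (c l l)) (d l l))) (d (d l (c l l)) (c (c l (c l l)) (d l (c l l)))))) (d (d k (d l (c k k))) (d (c (d l (c l l)) (d k (c k k))) (c (d (c l l) (c l l)) (d (c l l) l)))))))) s)) s) (A (B (A (O (c (c l (d l (c l (c l l)))) (c (d (d l l) (c (d l (c l l)) (d (c l l) (c l (c l l))))) (d (d k (d l (c k k))) (d (c (d l (c l l)) (d k (c k k))) (c (d (c l l) (c l l)) (d (c l l) l))))))) (B s (A (O (c (c l (d l (c l (c l l)))) (c (d (d l l) (c (d l (c (c l l) (c l l))) (d (d l l) (c (c l l) (d l l))))) (d (d k (d l (c k k))) (d (c (d l (c l l)) (d k (c k k))) (c (c (d l l) (c l l)) (d (c l l) l))))))) s))) (O (c (c l (d l (c l (d l (c l l))))) (c (d (d l l) (c (d l (c (d l (c l l)) (d l (c l l)))) (d (d l (c l l)) (c (c l (d l l)) (d (c l l) (c l l)))))) (d (d k (d l (c k k))) (d (c (d l (c l (c k k))) (d k (c k k))) (c (d (c l l) (c l l)) (d (c l l) l)))))))) s)) s) (A (B (A (O (c (c l (d l (c l l))) (c (d (d l l) (c (d l (c l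 l)) (d l (c l (c l l))))) (d (d k (d l (c k k))) (d (c (d l l) (d k (c k k))) (c (d (c l l) (c l l)) (c l l))))))) (B (A (B (A (O (c (c l (d l (c l (c l l)))) (c (d (d l l) (c (d l (c (c l l) (c l l))) (d (d l l) (c (c l l) (d l l))))) (d (d k (d l (c k k))) (d (c (d l (c l l)) (d k (c k k))) (c (c (d l l) (c l l)) (d (c l l) l))))))) s) (O (c (c l (d l (c l (d l (c l l))))) (c (d (d l l) (c (d l (c (d l (c l l)) (d l (c l l)))) (d (d l (c l l)) (c (c l (c l l)) (d l (c l l)))))) (d (d k (d l (c k k))) (d (c (d l (c l l)) (d k (c k k))) (c (c (d l l) (d l l)) (d (c l l) l)))))))) s) (A (O (c (c l (d l (c l (c l l)))) (c (d (d l l) (c (d l (c l l)) (d (c l l) (c l (c l l))))) (d (d k (d l (c k k))) (d (c (d l (c l l)) (d k (c k k))) (c (c (c l l) (c l l)) (d (c l l) l))))))) s))) (O (c (c l (d l (c l (d l (c l l))))) (c (d (d l l) (c (d l (c (d l (c l l)) (d l (c l l)))) (d (d l l) (c (d l (c l l)) (d l (c l l)))))) (d (d k (d l (c k k))) (d (c (d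 l (c l l)) (d k (c k k))) (c (d (c l l) (c l l)) (d (c l l) l)))))))) (B s (A (B s (A (B s (O (c (c l (d l (c l (c l l)))) (c (d (d l l) (c (d l (c (c l l) (c l l))) (d (c l l) (c (c l l) (d l l))))) (d (d k (d l (c k k))) (d (c (d l (c l l)) (d k (c k k))) (c (c (d l l) (c l l)) (d (c l l) l)))))))) s)) s))))))

theorem s00_r100001 : Sound P00 36864 2048 0 8192 :=
  chkOut3_sound P00 KK tr00_r100001 36864 2048 0 8192 (by decide +kernel)

end Vale.Agent.P154.SN
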