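import Vale.Agent.P154.SN.Charts

set_option maxRecDepth 100000

namespace Vale.Agent.P154.SN

open Cert InT OutT

/-- Certificate tree. -/
def tr00_r101 : OutT :=
(A (B (A (O (c l (c l (d l l)))) (O (c l (c (c l l) (d l (d l (c l l))))))) (A (O (c l (c l l))) (O (c l (c l (c l l)))))) (B (A (B (A (O (c l (c (d l l) (d (c k k) (d l (c l l)))))) (B (A (O (c (c l l) (c (d l (c l l)) (d (d k l) (d (c l (c k k)) (c (c l l) (c l l))))))) (B s (O (c (c l (c l l)) (c (d l (c l (c l l))) (d (d k (c k k)) (d (c l (d k l)) (c (c l l) (c l l))))))))) (O (c l (c (d l l) (d (d k l) (d (c l l) (c l l)))))))) (O (c l (c l (d l (d l (c l l))))))) (B (A (B s (A (O (c (c l (d l (c l l))) (c (d (c l l) (c (d l l) (d l (c l (c l l))))) (d (d k (d l l)) (d (c (c l l) (d k (c k k))) (c (c (c l l) (c l l)) (d l l))))))) s)) s) (A (O (c l (c (d l (c l l)) (d (d k l) (d (c l l) (c l (c l l))))))) (B (A s s) (O (c l (c (c l l) (d l (d l (c l l)))))))))) (A (O (c l (c l (d l (c l l))))) (O (c l (c (d l l)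 (d (d k l) (d (c l (d k (c k k))) (c (c l l) (d (c l l) (c l l)))))))))))

theorem s00_r101 : Sound P00 32768 8192 32768 16384 :=
  chkOut3_sound P00 KK tr00_r101 32768 8192 32768 16384 (by decide +kernel)

end Vale.Agent.P154.SN
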