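import Vale.Agent.P154.SN.T00_r0
import Vale.Agent.P154.SN.T00_r100000
import Vale.Agent.P154.SN.T00_r100001
import Vale.Agent.P154.SN.T00_r10001
import Vale.Agent.P154.SN.T00_r1001
import Vale.Agent.P154.SN.T00_r101
import Vale.Agent.P154.SN.T00_r11
import Vale.Agent.P154.SN.T01_r
import Vale.Agent.P154.SN.T10_r0
import Vale.Agent.P154.SN.T10_r100000
import Vale.Agent.P154.SN.T10_r100001000
import Vale.Agent.P154.SN.T10_r100001001
import Vale.Agent.P154.SN.T10_r10000101
import Vale.Agent.P154.SN.T10_r1000011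
import Vale.Agent.P154.SN.T10_r10001
import Vale.Agent.P154.SN.T10_r1001
import Vale.Agent.P154.SN.T10_r101
import Vale.Agent.P154.SN.T10_r11
import Vale.Agent.P154.SN.T11_r

namespace Vale.Agent.P154.SN

open Cert

theorem s00_r10000 : Sound P00 32768 4096 0 8192 :=
  sound_splitA P00 32768 2048 4096 0 8192 rfl s00_r100000 s00_r100001

theorem s00_r1000 : Sound P00 32768 4096 0 16384 :=
  sound_splitB P00 32768 4096 0 8192 16384 rfl s00_r10000 s00_r10001

theorem s00_r100 : Sound P00 32768 8192 0 16384 :=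
  sound_splitA P00 32768 4096 8192 0 16384 rfl s00_r1000 s00_r1001

theorem s00_r10 : Sound P00 32768 8192 0 32768 :=
  sound_splitB P00 32768 8192 0 16384 32768 rfl s00_r100 s00_r101

theorem s00_r1 : Sound P00 32768 16384 0 32768 :=
  sound_splitA P00 32768 8192 16384 0 32768 rfl s00_r10 s00_r11

theorem s00_r : Sound P00 0 32768 0 32768 :=
  sound_splitA P00 0 16384 32768 0 32768 rfl s00_r0 s00_r1

theorem s10_r10000100 : Sound P10 36864 1024 0 4096 :=
  sound_splitB P10 36864 1024 0 2048 4096 rfl s10_r100001000 s10_r100001001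

theorem s10_r1000010 : Sound P10 36864 2048 0 4096 :=
  sound_splitA P10 36864 1024 2048 0 4096 rfl s10_r10000100 s10_r10000101

theorem s10_r100001 : Sound P10 36864 2048 0 8192 :=
  sound_splitB P10 36864 2048 0 4096 8192 rfl s10_r1000010 s10_r1000011

theorem s10_r10000 : Sound P10 32768 4096 0 8192 :=
  sound_splitA P10 32768 2048 4096 0 8192 rfl s10_r100000 s10_r100001

theorem s10_r1000 : Sound P10 32768 4096 0 16384 :=
  sound_splitB P10 32768 4096 0 8192 16384 rfl s10_r10000 s10_r10001

theorem s10_r100 : Sound P10 32768 8192 0 16384 :=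
  sound_splitA P10 32768 4096 8192 0 16384 rfl s10_r1000 s10_r1001

theorem s10_r10 : Sound P10 32768 8192 0 32768 :=
  sound_splitB P10 32768 8192 0 16384 32768 rfl s10_r100 s10_r101

theorem s10_r1 : Sound P10 32768 16384 0 32768 :=
  sound_splitA P10 32768 8192 16384 0 32768 rfl s10_r10 s10_r11

theorem s10_r : Sound P10 0 32768 0 32768 :=
  sound_splitA P10 0 16384 32768 0 32768 rfl s10_r0 s10_r1

end Vale.Agent.P154.SN
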